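import Vale.Agent.P144D.MN.Est
import Vale.Agent.P144D.FD.Main

/-!
# The main estimate with a boundary
-/

namespace Vale.Agent.P144Z

namespace MN

open Finset Matrix Geo Mn Filter Topology

/-- The constant of the error of the exponent. -/
noncomputable def cE (L Λ n k : ℕ) : ℝ :=
  2 * ((k + 2) * ((8 * Λ * L + 1) ^ 2 * (4 ^ (k + 2) * (k + 3).factorial))) + n * 9600

open Classical in
theorem final {g : Geo} {A' : Gauge g.M} {L n m Λ r : ℕ} {c ε Γ : ℝ}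
    (D : g.Dom A' L n m Λ r c ε Γ) {q : Par} {u : Cor g.M} {Z w a b h K σ e : ℝ} (hL : 8 ≤ L)
    (hr : 80 ≤ r) (hq : q.Ok) (hR : 16 * (q.R + 1) ≤ g.M) (hu : u.Ok) (hw : 0 < w) (ha : 0 ≤ a)
    (hb : 0 ≤ b) (hh : 0 < h) (F : g.FlowD L q u Z w a b h)
    (F0 : (bare g A').FlowD L q u Z w a b h) (F1 : ∀ k, (one g A' k).FlowD L q u Z w a b h)
    (H : g.LastB (sc L g.J) h K) (H0 : (bare g A').LastB (sc L g.J) h |Zw par0 A' 1|)
    (H1 : ∀ k, (one g A' k).LastB (sc L g.J) h |Zw par0 A' 1|)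
    (hσ : ∀ f, flux g.A f = -1 → |ss g A' L q u f (r / 20) - σ| ≤ 9600 * (a / 2 ^ g.J)) {k : ℕ}
    (hk : Fintype.card g.K = k) (he : (8 * k + 1) * (Real.exp 1 * (Real.exp (b / 2 ^ g.J) - 1)) +
      cE L Λ n k * a / 2 ^ g.J ≤ e) (he1 : e ≤ 1 / 2) :
    (w * sc L g.J) ^ k * |g.mixD A' q u - Real.exp σ ^ n * Z ^ k * g.mixD A' par0 0| ≤
      Real.exp (n * σ) * Real.exp (4 * k) * (10 * e) * (K / |Zw par0 A' 1|) ∧
    (w * sc L g.J) ^ k * |Z ^ k * g.mixD A' par0 0| ≤ Real.exp (4 * k) * (K / |Zw par0 A' 1|) := by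
  subst hk
  obtain ⟨top, ht1, ht2, ht3⟩ := W.Geo.exists_top g
  have h8 := eight_le_sc (L := L) (by omega) g.J
  have hβ : 0 < w * sc L g.J := by positivity
  have ht := ht3 1 1 _ D.ok.sign le_rfl one_pos hβ
  set e₁ := Real.exp 1 * (Real.exp (b / 2 ^ g.J) - 1) with he₁
  have a0 : 0 ≤ Real.exp (b / 2 ^ g.J) - 1 := sub_nonneg.2 (Real.one_le_exp (by positivity))
  have a1 : Real.exp (b / 2 ^ g.J) - 1 ≤ e₁ :=
    le_mul_of_one_le_left a0 (Real.one_le_exp zero_le_one)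
  have a2 : 0 ≤ cE L Λ n (Fintype.card g.K) * a / 2 ^ g.J := by unfold cE; positivity
  have a3 : 0 ≤ (8 * Fintype.card g.K : ℝ) * e₁ := by positivity
  have a4 : e₁ ≤ e := by linarith
  have T1 := fun i => tt_close D.ok D.w hu (by omega) hh hw i (F1 i) D.ne (H1 i) le_rfl
    (a4.trans he1)
  obtain ⟨c1, c2⟩ := T_close D.ok hu (by omega) hh hw F H le_rfl
  have c3 := (RN.abs_aug_le_pn le_rfl one_pos hβ _).trans
    (T_close (ok_bare D.w) hu (by omega) hh hw F0 H0 (m := 1) (by simp)).1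
  rw [← ag_apply, map_sub, ag_T0, Nat.cast_one] at c3
  have hK := lastB_nonneg (by omega) hh H
  have hy := abs_pos.2 D.ne
  have e1 := mix_eq D.ok D.on (by have := hq.Z_lo; positivity) F.conv F0.conv
    (fun i => (F1 i).conv) (fun i => (T1 i).1) top ht1
  have e2 := mix_eq D.ok D.on (q := par0) one_ne_zero F.conv0 F0.conv0 (fun i => (F1 i).conv0)
    (fun i => by rw [ag_TT0 (F1 i)]; exact D.ne) top ht1
  set V₀ := -∑ i, (Z * tt g A' L par0 0 i) • g.bv i with hV₀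
  have e3 : Z ^ Fintype.card g.K * g.mixD A' par0 0 =
      top (NormedSpace.exp V₀ * T0 g L Z) / Zw par0 A' 1 := by
    rw [e2, WW_zero D hL hr F F0 F1, ag_TT0 F0, ← mul_div_assoc, ← ht2, scB_mul, scB_TT F,
      hom_exp (g.scB Z) (scB_one Z) (scB_mul Z), zero_sub]
    simp only [hV₀, map_neg, map_sum, map_smul, scB_bv, smul_smul, mul_comm Z]
  have m0 : V₀ ∈ g.sub univ := neg_mem (bv_sum_mem _)
  have v0 : g.ps (w * sc L g.J) univ V₀ ≤ Fintype.card g.K * 3 := by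
    rw [hV₀, Geo.ps, RN.pn_neg le_rfl one_pos hβ]
    exact ps_bv D.ok.sign hβ _ fun i => (T1 i).2.2
  have e4 : Real.exp (4 * Fintype.card g.K) =
      Real.exp (Fintype.card g.K * 3) * Real.exp (Fintype.card g.K) := by
    rw [← Real.exp_add]; congr 1; ring
  constructor
  · have hs : |∑ f ∈ univ.filter (fun f => flux g.A f = -1), ss g A' L q u f (r / 20) - n * σ| ≤
        n * (9600 * (a / 2 ^ g.J)) := by
      have h1 := sum_le_card_nsmul _ _ _ fun f (hf : f ∈ univ.filter fun f => flux g.A f = -1) =>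
        hσ f (mem_filter.1 hf).2
      have h2 := (abs_sum_le_sum_abs _ _).trans h1
      rwa [sum_sub_distrib, sum_const, D.card, nsmul_eq_mul, nsmul_eq_mul] at h2
    have b1 := err D hL hr hq hR hu hw ha F F0 F1
    have b2 := ps_bv D.ok.sign hβ _ fun i => (T1 i).2.1
    have b3 : g.ps (w * sc L g.J) univ ((∑ f ∈ univ.filter (fun f => flux g.A f = -1),
        ss g A' L q u f (r / 20) - n * σ) • (1 : g.E)) ≤ n * (9600 * (a / 2 ^ g.J)) := by
      rw [Geo.ps, RN.pn_smul le_rfl one_pos hβ]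
      exact (mul_le_of_le_one_right (abs_nonneg _) (RN.pn_one le_rfl one_pos hβ)).trans hs
    have b4 := (RN.pn_sub le_rfl one_pos hβ _ _).trans
      (add_le_add ((RN.pn_add le_rfl one_pos hβ _ _).trans (add_le_add b1 b3)) b2)
    have b5 := top_le hβ top ht (V := WW g A' L q u - ∑ i, tt g A' L q u i • g.bv i)
      (sub_mem (br_mem CC_mem _ _) (bv_sum_mem _)) m0 (c := n * σ) D.ne he1
      (c3.trans (mul_le_mul_of_nonneg_left a4 hy.le)) (le_trans (le_of_eq (congrArg _ (by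
        simp only [hV₀, sub_smul, sum_sub_distrib]
        abel))) (b4.trans (by
          rw [cE] at he
          rw [← he₁]
          have := a0.trans a1
          ring_nf at he this ⊢
          linarith))) v0
      (K₁ := K * Real.exp (Fintype.card g.K)) (c1.trans (by
        rw [mul_assoc]
        gcongr
        exact a1.trans a4)) c2
    rw [e1, ← Real.exp_nat_mul, mul_assoc, e3]
    refine b5.trans (le_of_eq ?_)
    rw [e4]
    ring
  · have b1 := (ht _).trans ((RN.pn_mul le_rfl one_pos hβ _ _).trans (mul_le_mul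
      (pn_exp le_rfl one_pos hβ m0 v0).2 c2 (RN.pn_nonneg _) (Real.exp_pos _).le))
    rw [e3, abs_div, ← mul_div_assoc, ← mul_div_assoc, e4]
    exact div_le_div_of_nonneg_right (b1.trans (le_of_eq (by ring))) hy.le

theorem small_e (s t b K : ℝ) {ε : ℝ} (hε : 0 < ε) :
    ∃ J₁ : ℕ, ∀ J ≥ J₁, s * (t * (Real.exp (b / 2 ^ J) - 1)) + K / 2 ^ J ≤ ε := by
  obtain ⟨J₁, h1⟩ := small_exp (s * t) b (half_pos hε)
  obtain ⟨J₂, h2⟩ := eventually_atTop.1
    (((tendsto_pow_atTop_atTop_of_one_lt (one_lt_two (α := ℝ))).const_div_atTop K).eventually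
      (ge_mem_nhds (half_pos hε)))
  refine ⟨max J₁ J₂, fun J hJ => ?_⟩
  have := h1 J (le_of_max_le_left hJ)
  have := h2 J (le_of_max_le_right hJ)
  rw [← mul_assoc]
  linarith

theorem pow_r {L J r : ℕ} {w : ℝ} (hw : 0 < w) (hr : r ≤ 8 * sc L (J + 1)) (k : ℕ) :
    (r : ℝ) ^ k ≤ (8 * L / w) ^ k * (w * sc L J) ^ k := by
  rw [← mul_pow]
  refine pow_le_pow_left₀ (Nat.cast_nonneg _) ?_ k
  have : r ≤ 8 * L * sc L J := by
    rw [sc_eq (Nat.le_succ J)] at hr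
    simpa [mul_assoc] using hr
  have h' : (r : ℝ) ≤ 8 * L * sc L J := by exact_mod_cast this
  refine h'.trans (le_of_eq ?_)
  field_simp

variable {L : ℕ} {q : Par} {Z a b σ : ℝ}

/-- The bounds on the flow in the plane. -/
def Pl (L : ℕ) (q : Par) (Z a b : ℝ) : Prop :=
  ∀ N₀ Λ : ℕ, 1 ≤ Λ → ∃ w > 0, ∃ J₀ : ℕ, ∀ J ≥ J₀, ∀ r : ℕ, 8 * sc L J ≤ r →
    r ≤ 8 * sc L (J + 1) → ∃ M₀ : ℕ, ∀ g : Geo, g.J = J → g.Nice N₀ Λ r → M₀ ≤ g.M → ∀ N : ℕ,
      16 * sc L N ≤ g.M → g.M ≤ 16 * sc L (N + 1) → g.FlowB L q N Z w a b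

/-- The constant of a flux. -/
def Sg (L : ℕ) (q : Par) (Z a b σ : ℝ) : Prop :=
  ∀ (g : Geo) (A' : Gauge g.M) (N₀ Λ r N : ℕ) (w' : ℝ), Dat g A' L q N₀ Λ r N Z w' a b →
    ∀ f, flux g.A f = -1 → |Mn.ss g A' L q g.J f (r / 20) - σ| ≤ 9600 * (a / 2 ^ g.J)

theorem exists_ref (hL : 64 ≤ L) (hq : q.Ok) (hF : Pl L q Z a b) : ∃ (w : ℝ) (J₀ : ℕ), ∀ J ≥ J₀,
    ∀ r, 8 * sc L J ≤ r → r ≤ 8 * sc L (J + 1) → ∃ (g : Geo) (A' : Gauge g.M) (N : ℕ) (f : g.P),
      g.J = J ∧ flux g.A f = -1 ∧ Dat g A' L q 2 3 r N Z w a b := by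
  obtain ⟨w, hw, J₀, h⟩ := hF 2 3 (by norm_num)
  refine ⟨w, J₀, fun J hJ r hr1 hr2 => ?_⟩
  obtain ⟨M₀, h⟩ := h J hJ r hr1 hr2
  have h8 := eight_le_sc (L := L) (by omega) J
  have hp : Pos ![((0, 0) : ℤ × ℤ), (2 * r, 0)] (![] : Fin 0 → ℤ × ℤ) 2 r :=
    ⟨fun i => by fin_cases i <;> simp [zd] <;> omega, fun k => k.elim0,
      fun i i' h => by
        fin_cases i <;> fin_cases i' <;> simp [zd] at h ⊢ <;> omega,
      fun _ k => k.elim0, fun k => k.elim0⟩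
  have : NeZero (M₀ + 16 * (q.R + 1) + 8 * (2 * r + 1) + 8 * r) := ⟨by omega⟩
  obtain ⟨N, D⟩ := exists_dat hL hq hw hr1 h (n := 2) (m := 0) (by norm_num) le_rfl ![] hp _ le_rfl
  exact ⟨_, _, N, prj _ (0, 0), rfl,
    ((geoM_spec (by norm_num) ![] J hp (by omega)).2.2.2.2 _).2 ⟨0, rfl⟩, D⟩

theorem main_plane (hL64 : 64 ≤ L) (hq : q.Ok) (hF : Pl L q Z a b) (hσ' : Sg L q Z a b σ) :
    MainOK q (Real.exp σ) Z := by
  classical
  intro n m Λ hn ε' hε'
  obtain ⟨w, hw, J₀, h⟩ := hF (n + m) (Λ + 1) (by omega)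
  set K : ℝ := (m + 2) * ((1600 * (n + m : ℕ) + 1) * (2 * 4 ^ m * (m + 1).factorial + 2)) +
    n * 9600 with hK
  set B : ℝ := (m + 2) * ((1600 * (n + m : ℕ) + 2) * b) with hB
  obtain ⟨J₁, hJ₁⟩ := small_exp ((8 * L / w) ^ m * (Real.exp (n * σ) * Real.exp B)) (K * a) hε'
  refine ⟨8 * sc L (max J₀ J₁), fun r hr x y d hp => ?_⟩
  obtain ⟨J, hJ, hr1, hr2⟩ := exists_scale (L := L) (c := 8) (by omega) (by omega) hr
  obtain ⟨M₀, h⟩ := h J (le_of_max_le_left hJ) r hr1 hr2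
  refine ⟨M₀ + 16 * (q.R + 1) + 8 * (Λ * r + 1) + 8 * r, fun M _ hM => ?_⟩
  obtain ⟨N, D⟩ := exists_dat hL64 hq hw hr1 h hn le_rfl d hp M hM
  obtain ⟨top, ht1, ht2, ht3⟩ := exists_top (geoM M x y d J)
  have h0 : Zw par0 (sec M AA) 1 ≠ 0 := (free_sec (M := M) (by omega)).2.ne'
  have hZ0 : q.Z ≠ 0 := by have := hq.Z_lo; positivity
  have e1 : mix q M x y d = _ := Mn.mix_eq D.nice.ok D.sign D.nice.on hZ0 D.B.conv D.B0.conv
    (fun k => (D.B1 k).conv) D.B.inv D.B0.inv h0 top ht1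
  have e2 : mix par0 M x y d = _ := Mn.mix_eq D.nice.ok D.sign D.nice.on (q := par0) one_ne_zero
    D.B.conv0 D.B0.conv0 (fun k => (D.B1 k).conv0) D.B.inv D.B0.inv h0 top ht1
  have hfl : (univ.filter fun f : Tor M => flux (sec M AA * spinG M 0 x) f = -1).card = n := by
    have : (univ.filter fun f : Tor M => flux (sec M AA * spinG M 0 x) f = -1) =
        univ.image fun i => prj M (x i) := by
      ext f
      have h1 : flux (sec M AA * spinG M 0 x) f = -1 ↔ ∃ i, f = prj M (x i) :=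
        (geoM_spec (M := M) hn d J hp (by omega)).2.2.2.2 f
      rw [mem_filter, h1, mem_image]
      simp [eq_comm]
    rw [this, card_image_of_injective, card_univ, Fintype.card_fin]
    intro i i' hi
    by_contra hne
    have h1 := hp.xx i i' hne
    rw [prj_inj (hp.xle i) (hp.xle i') (by omega) hi] at h1
    simp [zd] at h1
  have h5 : (w * sc L J) ^ m * _ ≤ Real.exp (n * σ) * Real.exp B *
      (Real.exp (K * a / 2 ^ J) - 1) := D.final hfl (Fintype.card_fin m)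
    (hσ' _ _ _ _ _ _ _ D) top (ht2 Z) (ht3 1 1 _ D.nice.ok.sign le_rfl one_pos (D.wpos J))
  have h6 := hJ₁ J (le_of_max_le_right hJ)
  rw [e1, e2, ← Real.exp_nat_mul, mul_left_comm, ← mul_sub, abs_mul, mul_comm]
  refine mul_le_mul_of_nonneg_right ?_ (abs_nonneg _)
  have h8 := eight_le_sc (L := L) (by omega) J
  have hr0 : (0 : ℝ) < r := by exact_mod_cast (by omega : 0 < r)
  rw [le_div_iff₀ (by positivity)]
  refine (mul_le_mul_of_nonneg_left (pow_r hw hr2 m) (abs_nonneg _)).trans (le_trans ?_ h6)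
  rw [mul_left_comm, mul_assoc ((8 * L / w) ^ m)]
  refine mul_le_mul_of_nonneg_left ?_ (pow_nonneg (by positivity) m)
  rw [mul_comm]
  exact h5

theorem main_dom {m : ℕ} {c ε₀ η δ : ℝ} (hL : 64 ≤ L) (hq : q.Ok) (ha : 0 ≤ a) (hZ : 1 / 2 ≤ Z)
    (hF : Pl L q Z a b) (hσ : Sg L q Z a b σ)
    (hD : ∀ (Λ : ℕ) (h : ℝ), 0 < h → ∃ w > 0, ∃ b > 0, ∃ J₀ : ℕ, ∀ g : Geo, J₀ ≤ g.J →
      g.PreD L m Λ c ε₀ → ∀ u : Cor g.M, u.Ok → u.Off g.A → u.Sm q.R η δ →
        g.FlowD L q u Z w a b h) : MainD L m c ε₀ η δ q (Real.exp σ) Z := by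
  intro n k Λ Γ hΓ
  obtain ⟨Cg, hCg, hg⟩ := LM.lastB_gap
  have hh : Γ ≤ Cg * Γ := le_mul_of_one_le_left (by linarith) hCg
  obtain ⟨w, hw, b', hb', J₁, hD⟩ := hD (8 * Λ * L) (Cg * Γ) (by linarith)
  obtain ⟨w₂, J₂, hR⟩ := exists_ref hL hq hF
  have hP : 0 < (8 * L / w) ^ k := by have : (0 : ℝ) < L := by positivity
                                      positivity
  refine ⟨(8 * L / w) ^ k * (2 ^ k * Real.exp (4 * k)), fun ε hε => ?_⟩
  set s := (8 * L / w) ^ k * (Real.exp (n * σ) * Real.exp (4 * k) * 10) with hs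
  have hs0 : 0 < s := by positivity
  obtain ⟨J₃, hJ₃⟩ := small_e (8 * k + 1) (Real.exp 1) b' (cE L Λ n k * a)
    (ε := min (1 / 2) (ε / s)) (by positivity)
  refine ⟨max (max J₁ J₂) (max J₃ (q.R + 1)), fun g A' r hJ hk D u hu hoff hsm K H => ?_⟩
  simp only [max_le_iff] at hJ
  obtain ⟨⟨k1, k2⟩, k3, k4⟩ := hJ
  have h1 := D.lo
  have h2 := D.Mlo
  have h3 : g.J < sc L g.J := by
    have := Nat.lt_pow_self (n := g.J) (show 1 < L by omega)
    unfold sc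
    omega
  have h4 := sc_mono (L := L) (by omega) (show 1 ≤ g.J by omega)
  have h5 : sc L 1 = 8 * L := by simp [sc]
  have hM : g.M ≤ 8 * Λ * L * sc L g.J := by
    calc g.M ≤ Λ * (8 * sc L (g.J + 1)) := D.Mhi.trans (Nat.mul_le_mul_left _ D.hi)
      _ = _ := by rw [sc_eq (Nat.le_succ g.J)]; simp; ring
  have n1 : ∀ f, flux A' f ≠ -1 := fun f e => by
    rw [D.fl] at e
    split_ifs at e with h
    · norm_num at e
    · exact h e
  have n2 : ∀ f, flux g.A f = 1 → flux A' f = 1 := fun f e => by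
    rw [D.fl, e, ite_self]
  have h6 : 16 * sc L g.J ≤ g.M := by omega
  have F := hD g k1 ⟨D.ok, D.on, h6, hM, ⟨fun f a f' b c => D.sep.ff f a f' b (by omega),
    fun i f hf => D.sep.fs i f (by omega), fun i i' e => h1.trans_lt (D.sep.ss i i' e)⟩, D.bnd⟩
    u hu (fun X hX => hoff X fun x hx => n2 x (hX x hx)) hsm
  have F0 := hD (bare g A') k1 ⟨ok_bare D.w, fun i => i.elim, h6, hM,
    ⟨fun f e => absurd e (n1 f), fun i => i.elim, fun i => i.elim⟩, D.bnd'⟩ u hu hoff hsm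
  have F1 := fun i => hD (one g A' i) k1 ⟨ok_one D.ok D.w i, fun _ => D.on i,
    h6, hM, ⟨fun f e => absurd e (n1 f),
      fun _ f hf => n2 f (D.sep.fs i f (le_trans hf h1)), fun _ _ e => absurd rfl e⟩, D.bnd'⟩
    u hu hoff hsm
  obtain ⟨G, A₀, N, f₀, hG, hf₀, D₀⟩ := hR g.J k2 r h1 D.hi
  have hK := lastB_nonneg (by omega) (by linarith) H
  obtain ⟨r1, r2⟩ := final D (σ := σ) (by omega) (by omega) hq (by omega) hu hw ha hb'.le
    (by linarith) F F0 F1 (lastB_mono (by omega) (by linarith) H hh)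
    (hg (bare g A') D.w _ (by omega) Γ hΓ D.gap _ le_rfl)
    (fun i => hg (one g A' i) D.w _ (by omega) Γ hΓ D.gap _ le_rfl)
    (fun f hf => by
      rw [ss_eq D hq (by omega) hu hoff D₀ hG hf hf₀, ← hG]
      exact hσ _ _ _ _ _ _ _ D₀ _ hf₀) hk (hJ₃ g.J k3) (min_le_left _ _)
  have hr0 : (0 : ℝ) < (r : ℝ) ^ k := pow_pos (by exact_mod_cast (by omega : 0 < r)) k
  have p1 := pow_r hw D.hi k
  have hy : 0 ≤ K / |Zw par0 A' 1| := by positivity
  generalize K / |Zw par0 A' 1| = y at *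
  generalize (w * sc L g.J) ^ k = β at *
  constructor
  · rw [div_mul_eq_mul_div, le_div_iff₀ hr0]
    refine (mul_le_mul_of_nonneg_left p1 (abs_nonneg _)).trans ?_
    rw [mul_left_comm, mul_comm _ β]
    refine (mul_le_mul_of_nonneg_left r1 hP.le).trans ?_
    have := mul_le_mul_of_nonneg_right ((le_div_iff₀ hs0).1 (min_le_right (1 / 2) (ε / s))) hy
    rw [hs] at this ⊢
    linarith
  · rw [div_mul_eq_mul_div, le_div_iff₀ hr0]
    refine (mul_le_mul_of_nonneg_left p1 (abs_nonneg _)).trans ?_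
    rw [mul_left_comm, mul_comm _ β, mul_assoc, mul_assoc]
    refine mul_le_mul_of_nonneg_left ?_ hP.le
    have hβ : 0 ≤ β := nonneg_of_mul_nonneg_right (hr0.le.trans p1) hP
    have z1 : 1 ≤ 2 ^ k * |Z ^ k| := by
      rw [abs_of_nonneg (by positivity), ← mul_pow]
      exact one_le_pow₀ (by linarith)
    rw [abs_mul] at r2
    have z2 := mul_le_mul_of_nonneg_left r2 (by positivity : (0 : ℝ) ≤ 2 ^ k)
    have z3 := mul_le_mul_of_nonneg_right z1 (mul_nonneg hβ (abs_nonneg (g.mixD A' par0 0)))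
    linarith

end MN

open MN Mn in
theorem mainStmtD_of (hF : FlowStmtD) : MainStmtD := by
  obtain ⟨ε₀, hε₀, hF⟩ := hF
  refine ⟨ε₀, hε₀, fun c m hc => ?_⟩
  obtain ⟨L₀, hF⟩ := hF c m hc
  refine ⟨max L₀ 64, fun L hL ε hε => ?_⟩
  have hL64 : 64 ≤ L := le_of_max_le_right hL
  obtain ⟨C, hC, η₀, hη₀, hF⟩ := hF L (le_of_max_le_left hL)
  set η := min η₀ (min ε 1 / (20000 * C)) with hη
  have hm0 : 0 < min ε 1 := lt_min hε one_pos
  have hη0 : 0 < η := lt_min hη₀ (by positivity)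
  have hCη : C * η ≤ min ε 1 / 20000 := by
    calc C * η ≤ C * (min ε 1 / (20000 * C)) :=
          mul_le_mul_of_nonneg_left (min_le_right _ _) (by linarith)
      _ = _ := by field_simp
  have hm1 := min_le_left ε 1
  have hm2 := min_le_right ε 1
  refine ⟨η, hη0, fun R => ?_⟩
  obtain ⟨δ₀, hδ₀, hF⟩ := hF η hη0 (min_le_left _ _) R
  refine ⟨δ₀, hδ₀, fun q hqR hq => ?_⟩
  subst hqR
  obtain ⟨Z, hZ, hP, hD⟩ := hF q rfl hq
  obtain ⟨w, J₀, h⟩ := exists_ref hL64 hq.ok hP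
  obtain ⟨σ, hσ, hσ'⟩ := exists_sigma hL64 (w := w) (J₀ := J₀) fun i => h (J₀ + i) (by omega) _
    le_rfl (Nat.mul_le_mul_left _ (sc_mono (by omega) (by omega)))
  refine ⟨Real.exp σ, Z, ?_, by linarith, main_plane hL64 hq.ok hP hσ',
    main_dom hL64 hq.ok (by positivity) (by have := abs_le.1 hZ; linarith) hP hσ' hD⟩
  have := Real.abs_exp_sub_one_le (x := σ) (by linarith)
  linarith

theorem mainStmtD : MainStmtD := mainStmtD_of flowStmtD

end Vale.Agent.P144Z
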