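import Vale.Agent.P144D.FD.Defs
import Vale.Agent.P144D.LM.Basic
import Vale.Agent.P144Z.M.Main

/-!
# The main estimate with a boundary: the exact formula for the mixed correlations
-/

namespace Vale.Agent.P144Z.MN

open Finset Matrix Geo Mn

/-- The sum of the constants. -/
noncomputable def CC (g : Geo) (L : ℕ) (q : Par) (u : Cor g.M) : g.E :=
  ∑ j ∈ range (g.J + 1), ∑ U, g.csC L q u j U

/-- The last integration. -/
noncomputable def TT (g : Geo) (L : ℕ) (q : Par) (u : Cor g.M) : g.E :=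
  g.TL (sc L g.J) (NormedSpace.exp (∑ X, (g.flowC L q u g.J).H X))

variable {g : Geo} {L : ℕ} {q : Par} {u : Cor g.M}

theorem noF_CC : g.noF (CC g L q u) = CC g L q u := by
  simp only [CC, map_sum, W.I2.noF_csC]

theorem CC_mem : CC g L q u ∈ g.sub univ := noF_CC (g := g) ▸ LM.noF_mem_univ _

theorem TT_mem : TT g L q u ∈ g.sub univ := LM.TL_mem' _ _

theorem gen (hZ : q.Z ≠ 0) (h : g.ConvC L q u g.J) :
    ∑ n, (cw n * wt g.A q.x n * Real.exp (uint q n + ∑ X, u X n)) •
      NormedSpace.exp (∑ k, (g.src k).O (g.see (g.src k).y n) • g.bv k) =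
      (q.Z ^ (2 * g.M ^ 2))⁻¹ • (NormedSpace.exp (CC g L q u) * TT g L q u) := by
  have h1 := LM.Om_eq_TL (sc L g.J) (by rw [I2.noF_exp]; exact congrArg _ noF_CC)
    (W.I2.flow_eqC g u h)
  rw [W.I2.Om_initC g u q hZ] at h1
  rw [CC, TT, ← h1, smul_smul, inv_mul_cancel₀ (pow_ne_zero _ hZ), one_smul]
  exact sum_congr rfl fun n _ => by rw [KP.exp_sum']; simp only [exp_bv]

theorem ag_mul (F G : g.E) : ag g (F * G) = ag g F * ag g G := by simp only [ag_apply, map_mul]

theorem ag_exp (F : g.E) : ag g (NormedSpace.exp F) = Real.exp (ag g F) := aug_exp F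

theorem Z_eq (hZ : q.Z ≠ 0) (h : g.ConvC L q u g.J) : ZwC q u g.A 1 =
    (q.Z ^ (2 * g.M ^ 2))⁻¹ * (Real.exp (ag g (CC g L q u)) * ag g (TT g L q u)) := by
  have h1 := congrArg (ag g) (gen hZ h)
  simp only [map_sum, map_smul, ag_mul, ag_exp, ag_bv, smul_eq_mul, mul_zero, sum_const_zero,
    Real.exp_zero] at h1
  rw [← h1, ZwC]
  rfl

theorem see_en (hg : g.OkW) (k : g.K) (hon : (g.src k).on = true) (n : g.Cfg) :
    (g.src k).O (g.see (g.src k).y n) = g.sgK k n := by
  rw [((hg.src k).en hon).2]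
  simp only [Geo.see, Geo.sgK]
  rw [show prj g.M (0, 0) = 0 from G.prj_zero, add_zero]

variable {A' : Gauge g.M}

theorem ok_bare (hA' : IsW A') : (bare g A').OkW := ⟨hA', fun k => k.elim⟩

theorem ok_one (hg : g.OkW) (hA' : IsW A') (k : g.K) : (one g A' k).OkW :=
  ⟨hA', fun _ => hg.src k⟩

/-- The contribution of the last integration to the mean energy. -/
noncomputable def tt (g : Geo) (A' : Gauge g.M) (L : ℕ) (q : Par) (u : Cor g.M) (k : g.K) : ℝ :=
  cf (one g A' k) () (TT (one g A' k) L q u) / ag (one g A' k) (TT (one g A' k) L q u)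

theorem en_eq (hg : g.OkW) (k : g.K) (hon : (g.src k).on = true) (hZ : q.Z ≠ 0)
    (hc : (one g A' k).ConvC L q u g.J) (h0 : ag _ (TT (one g A' k) L q u) ≠ 0) :
    ZwC q u A' (g.sgK k) / ZwC q u A' 1 =
      cf (one g A' k) () (CC (one g A' k) L q u) + tt g A' L q u k := by
  have h1 : ZwC q u A' 1 = _ := Z_eq (g := one g A' k) hZ hc
  have h2 := congrArg (cf (one g A' k) ()) (gen (g := one g A' k) hZ hc)
  have h3 := src_one (CC_mem (g := one g A' k) (L := L) (q := q) (u := u)) noF_CC ()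
    fun _ _ => rfl
  have h3' := src_one (TT_mem (g := one g A' k) (L := L) (q := q) (u := u)) (LM.noF_TL _ _) ()
    fun _ _ => rfl
  rw [tt]
  set a := ag _ (CC (one g A' k) L q u)
  set c := cf (one g A' k) () (CC (one g A' k) L q u)
  set a' := ag _ (TT (one g A' k) L q u)
  set c' := cf (one g A' k) () (TT (one g A' k) L q u)
  rw [h3, h3', exp_add', exp_smul_one, exp_bv] at h2
  simp only [univ_unique, sum_singleton, exp_bv, map_sum, map_smul, map_add, cf_one, cf_bv,
    smul_eq_mul, smul_mul_assoc, mul_smul_comm, one_mul, mul_one, zero_add, add_mul, mul_add, bv_sq,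
    map_zero, mul_zero, add_zero] at h2
  have h4 : ZwC q u A' (g.sgK k) =
      (q.Z ^ (2 * g.M ^ 2))⁻¹ * (Real.exp a * (c * a' + c')) := by
    refine Eq.trans ?_ (h2.trans (by ring))
    rw [ZwC]
    refine sum_congr rfl fun n _ => ?_
    rw [← see_en hg k hon n]
    rfl
  rw [h4, h1]
  have := pow_ne_zero (2 * g.M ^ 2) hZ
  have := (Real.exp_pos a).ne'
  field_simp

/-- The subtracted sum of the constants. -/
noncomputable def WW (g : Geo) (A' : Gauge g.M) (L : ℕ) (q : Par) (u : Cor g.M) : g.E :=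
  br g A' (CC g L q u) (CC (bare g A') L q u) (fun k => CC (one g A' k) L q u)

theorem mix_eq (hg : g.OkW) (hon : ∀ k, (g.src k).on = true) (hZ : q.Z ≠ 0)
    (hc : g.ConvC L q u g.J) (hc0 : (bare g A').ConvC L q u g.J)
    (hc1 : ∀ k, (one g A' k).ConvC L q u g.J) (h1 : ∀ k, ag _ (TT (one g A' k) L q u) ≠ 0)
    (top : g.E →ₗ[ℝ] ℝ)
    (ht : ∀ a : g.K → ℝ, top (NormedSpace.exp (∑ k, a k • g.bv k)) = ∏ k, a k) :
    g.mixD A' q u = top (NormedSpace.exp (WW g A' L q u - ∑ k, tt g A' L q u k • g.bv k) *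
      TT g L q u) / ag _ (TT (bare g A') L q u) := by
  rw [mixD]
  simp only [fun k => en_eq hg k (hon k) hZ (hc1 k) (h1 k)]
  have h5 : ZwC q u A' 1 = _ := Z_eq (g := bare g A') hZ hc0
  set a := ag _ (CC (bare g A') L q u) with ha
  set c := fun k => cf (one g A' k) () (CC (one g A' k) L q u) + tt g A' L q u k with hcc
  have h1 := congrArg (fun F => top (F * NormedSpace.exp (-∑ k, c k • g.bv k))) (gen hZ hc)
  simp only [sum_mul, smul_mul_assoc, ← exp_add', map_sum, map_smul, smul_eq_mul] at h1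
  have h2 : CC g L q u + -∑ k, c k • g.bv k =
      a • (1 : g.E) + (WW g A' L q u - ∑ k, tt g A' L q u k • g.bv k) := by
    simp only [WW, br, hcc, add_smul, sum_add_distrib]
    abel
  have h3 : ∀ n : g.Cfg, ∑ k, (g.src k).O (g.see (g.src k).y n) • g.bv k + -∑ k, c k • g.bv k
      = ∑ k, (g.sgK k n - c k) • g.bv k := by
    intro n
    simp only [sub_smul, sum_sub_distrib, see_en hg _ (hon _)]
    rw [sub_eq_add_neg]
  simp only [h3, ht] at h1
  rw [mul_right_comm, ← exp_add', h2, exp_add', exp_smul_one, smul_mul_assoc, one_mul,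
    smul_mul_assoc, map_smul, smul_eq_mul] at h1
  have h4 : ZwC q u g.A (fun n => ∏ k, (g.sgK k n - c k)) = _ := h1
  rw [h4, h5]
  have := pow_ne_zero (2 * g.M ^ 2) hZ
  have := (Real.exp_pos a).ne'
  field_simp

end Vale.Agent.P144Z.MN
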