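import Vale.Agent.P144D.MN.Last

/-!
# The main estimate with a boundary: the subtracted constants
-/

namespace Vale.Agent.P144Z.MN

open Finset Matrix Geo Mn

variable {g : Geo} {A' : Gauge g.M}

theorem csC_empty (hg : g.OkW) {u : Cor g.M} (hu : u.Ok) (L : ℕ) (q : Par) (j : ℕ) :
    g.csC L q u j ∅ = 0 := by
  cases j with
  | zero => exact (congrArg g.noF (W.R3W.W0C_empty hg hu q)).trans (map_zero _)
  | succ j =>
    have hE : ∀ C : Matrix g.S g.S ℝ, evG C (1 : g.E) = 1 := fun C =>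
      Ev.val_injective (by rw [val_evG, map_one, gauss_one])
    simp [Geo.csC, Geo.intg, Cl, (W.Geo.wf_flowC hg hu L q j).H_empty, hE, lg_one]

theorem exc_sub (hg : g.OkW) (hon : ∀ k, (g.src k).on = true) {U : Finset g.P} (h : g.Exc U) :
    ∃ k, (g.src k).y ∈ U ∧ stein U ≤ 4 := by
  obtain ⟨k, h1, h2⟩ := Mn.exc_sub (g := { g with A := 1 }) ⟨fun _ => Or.inl rfl, hg.src⟩ hon h
  exact ⟨k, h1, (stein_mono h2).trans (stein_star _)⟩

theorem ps_br (hA : IsW g.A) (hA' : IsW A') {β : ℝ} (hβ : 0 < β) {U : Finset g.P} {F : g.E}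
    {F₀ : (bare g A').E} {F₁ : ∀ k, (one g A' k).E} (hF : F ∈ g.sub U)
    (h₁ : ∀ k, F₁ k ∈ (one g A' k).sub U) :
    g.ps β univ (br g A' F F₀ F₁) ≤
      g.ps β U F + (bare g A').ps β U F₀ + ∑ k, (one g A' k).ps β U (F₁ k) := by
  refine (RN.pn_sub le_rfl one_pos hβ _ _).trans (add_le_add
    ((RN.pn_sub le_rfl one_pos hβ _ _).trans (add_le_add
      (RN.pn_mono le_rfl one_pos hβ le_rfl le_rfl (subset_univ U) hF) ?_)) ?_)
  · rw [RN.pn_smul le_rfl one_pos hβ]
    exact (mul_le_of_le_one_right (abs_nonneg _) (RN.pn_one le_rfl one_pos hβ)).trans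
      (RN.abs_aug_le_pn le_rfl one_pos hβ _)
  refine (RN.pn_sum le_rfl one_pos hβ _ _).trans (sum_le_sum fun k _ => ?_)
  rw [RN.pn_smul le_rfl one_pos hβ]
  refine le_trans ?_ (ps_cf (g := one g A' k) hA' hβ (h₁ k) ())
  rw [mul_comm]
  exact mul_le_mul_of_nonneg_right (W.Geo.pn_bv k hA le_rfl one_pos hβ (mem_univ _)) (abs_nonneg _)

theorem ps_wt (hA : IsW g.A) {β β' Γ : ℝ} (hβ : 0 < β) (h : β ≤ β') (hΓ : 4 * β' / β ≤ Γ) {m : ℕ}
    (hm : Fintype.card g.K ≤ m) {U : Finset g.P} {F : g.E} (hF : F ∈ g.sub U) :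
    g.ps β' U F ≤ Γ ^ m * g.ps β U F := by
  classical
  have h1 : 1 ≤ 4 * β' / β := by rw [le_div_iff₀ hβ]; linarith
  refine (W.Geo.pn_weight hA le_rfl one_pos hβ hF h).trans
    (mul_le_mul_of_nonneg_right ?_ (ps_nonneg _))
  refine (pow_le_pow_right₀ h1 ((card_le_univ _).trans hm)).trans ?_
  exact pow_le_pow_left₀ (by linarith) hΓ _

/-- The subtracted constants. -/
noncomputable def Br (g : Geo) (A' : Gauge g.M) (L : ℕ) (q : Par) (u : Cor g.M) (j : ℕ)
    (U : Finset g.P) : g.E :=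
  br g A' (g.csC L q u j U) ((bare g A').csC L q u j U) (fun k => (one g A' k).csC L q u j U)

theorem WW_eq (L : ℕ) (q : Par) (u : Cor g.M) :
    WW g A' L q u = ∑ j ∈ range (g.J + 1), ∑ U, Br g A' L q u j U := by
  simp only [WW, CC, Br, ← br_sum]

/-- The sum of the scalar constants that see the point `f`. -/
noncomputable def ss (g : Geo) (A' : Gauge g.M) (L : ℕ) (q : Par) (u : Cor g.M) (f : g.P)
    (T : ℕ) : ℝ :=
  ∑ j ∈ range (g.J + 1), (g.sigC L q u j f T - (bare g A').sigC L q u j f T)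

/-- Small sets that see no flux. -/
def Gd (g : Geo) (ℓ r : ℕ) (U : Finset g.P) : Prop :=
  stein U ≤ r / 20 ∧ ∀ f, flux g.A f = -1 → ∀ x ∈ U, 2 * stein U + 3 * ℓ < tdist f x

section

variable {L n m Λ r : ℕ} {c ε Γ : ℝ} (D : g.Dom A' L n m Λ r c ε Γ)
include D

theorem sep_ff {f f' : g.P} (h1 : flux g.A f = -1) (h2 : flux g.A f' = -1) (h3 : f ≠ f') :
    r < tdist f f' := not_le.1 fun h4 => by
  have := D.sep.ff f' h2 f h3 h4
  rw [h1] at this
  norm_num at this

theorem sep_fs {f : g.P} (h1 : flux g.A f = -1) (k : g.K) : r < tdist f (g.src k).y :=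
  not_le.1 fun h4 => by
    have := D.sep.fs k f h4
    rw [h1] at this
    norm_num at this

theorem flat' {f : g.P} (h : flux g.A f = -1) : Flat A' f r := fun x hx => by
  rw [D.fl]
  split_ifs with h1
  · rfl
  · exact D.sep.ff f h x (fun e => h1 (e ▸ h)) hx

theorem br_good (hL : 8 ≤ L) {q : Par} (hq : q.Ok) (hR : 16 * (q.R + 1) ≤ g.M) {u : Cor g.M}
    (hu : u.Ok) {j : ℕ} (hj : j ≤ g.J) {U : Finset g.P} (hU : Gd g (sc L j) r U) :
    Br g A' L q u j U = 0 := by
  rcases U.eq_empty_or_nonempty with rfl | ⟨x, hx⟩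
  · rw [Br, csC_empty D.ok hu, csC_empty (ok_bare D.w) hu]
    simp only [fun k => csC_empty (ok_one D.ok D.w k) hu L q j]
    exact br_zero
  obtain ⟨hs, hfl⟩ := hU
  have h1 := sc_mono (L := L) (by omega) hj
  have h2 := D.lo
  have h3 := D.Mlo
  have h8 := eight_le_sc (L := L) (by omega) j
  have hT : tdist x x + 2 * stein U + 3 * sc L j ≤ 2 * stein U + 3 * sc L j := by
    rw [tdist_self]; omega
  have hM : 4 * (2 * stein U + 3 * sc L j) + 1 ≤ g.M := by omega
  have hn : ∀ f, tdist f x ≤ 2 * stein U + 3 * sc L j → flux g.A f ≠ -1 := fun f hf e =>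
    absurd hf (not_le.2 (hfl f e x hx))
  have m1 : ∀ f, tdist f x ≤ 2 * stein U + 3 * sc L j → flux A' (shf x x f) = flux g.A f :=
    fun f hf => by rw [shf_self, D.fl, if_neg (hn f hf)]
  have m2 := D.eqv x _ (by omega) hn
  have m3 : ∀ (X : Finset g.P) n', u (X.image (shf x x)) n' =
      u X fun e => n' (shf x x e.1, e.2) := fun X n' => by
    rw [image_shf]
    simp only [shf_self]
  have h0 : ag _ ((bare g A').csC L q u j U) = ag g (g.csC L q u j U) := by
    have := W.Geo.ag_csC (g := g) (g' := bare g A') (c := x) (c' := x) hL D.ok (ok_bare D.w) hu hu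
      hq hR hR ⟨hM, hM, m1, by simpa only [shf_self] using m2, fun X _ => m3 X⟩ j hx hT
    rwa [image_shf] at this
  have h4 : ∀ k, (g.src k).y ∈ U →
      cf (one g A' k) () ((one g A' k).csC L q u j U) = cf g k (g.csC L q u j U) := by
    intro k hk
    have := W.Geo.ag_cs_srcC (g := g) (g' := one g A' k) (c := x) (c' := x) hL D.ok
      (ok_one D.ok D.w k) hu hu hq hR hR
      ⟨hM, hM, m1, by simpa only [shf_self] using m2, fun X _ => m3 X⟩ j (k := k) (k' := ())
      ⟨(shf_self _ _).symm, rfl, rfl, rfl, rfl, fun _ _ => Iff.rfl⟩ (fun v hv => by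
        rw [((D.ok.src k).en (D.on k)).1] at hv
        have : zd v 0 ≤ 1 := by
          simp only [mem_insert, mem_singleton] at hv
          rcases hv with rfl | rfl
          · simp [zd]
          · unfold uz; split_ifs <;> simp [zd]
        simp only [min_self]
        omega) hx hk hT
    rwa [image_shf] at this
  have h5 : ∀ k, (g.src k).y ∉ U → cf (one g A' k) () ((one g A' k).csC L q u j U) = 0 :=
    fun k hk => cf_not_mem (g := one g A' k) (W.Geo.csC_mem (ok_one D.ok D.w k) hu L q j U).1 hk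
  have h6 : ∀ k k', (g.src k).y ∈ U → (g.src k').y ∈ U → k = k' := fun k k' a b => by
    by_contra hne
    have := D.sep.ss k k' hne
    have := tdist_le_stein a b
    omega
  obtain ⟨hm, hn⟩ := W.Geo.csC_mem D.ok hu L q j U
  rw [Br, br, h0]
  by_cases hk : ∃ k, (g.src k).y ∈ U
  · obtain ⟨k, hk⟩ := hk
    rw [sum_eq_single k (fun k' _ hne => by rw [h5 k' fun h => hne (h6 _ _ h hk), zero_smul])
      (fun h => absurd (mem_univ _) h), h4 k hk, sub_sub, sub_eq_zero]
    exact src_one hm hn k fun k' h => h6 _ _ h hk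
  · push Not at hk
    rw [sum_eq_zero fun k _ => by rw [h5 k (hk k), zero_smul], sub_zero, sub_eq_zero]
    exact src_zero hm hn hk

theorem not_exc (hL : 1 ≤ L) (hr : 80 ≤ r) {j : ℕ} (hj : j ≤ g.J) {U : Finset g.P}
    (hU : ¬ Gd g (sc L j) r U) : ¬ g.Exc U ∧ ¬ (bare g A').Exc U ∧ ∀ k, ¬ (one g A' k).Exc U := by
  have h : ¬ g.Exc U := fun h => by
    obtain ⟨k, hk, h4⟩ := exc_sub D.ok D.on h
    refine hU ⟨by omega, fun f hf x hx => ?_⟩
    have := sep_fs D hf k
    have := tdist_le_stein hx hk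
    have := tdist_triangle f x (g.src k).y
    have := sc_mono hL hj
    have := D.lo
    omega
  exact ⟨h, fun ⟨k, _⟩ => k.elim, fun k ⟨_, h'⟩ => h ⟨k, h'⟩⟩

open Classical in
/-- The small sets that see a flux. -/
theorem medium (hL : 1 ≤ L) (q : Par) {u : Cor g.M} (hu : u.Ok) {j : ℕ} (hj : j ≤ g.J) :
    ∑ U ∈ univ.filter (fun U => ¬ Gd g (sc L j) r U ∧ ¬ r / 20 < stein U), Br g A' L q u j U =
      (∑ f ∈ univ.filter (fun f => flux g.A f = -1),
        (g.sigC L q u j f (r / 20) - (bare g A').sigC L q u j f (r / 20))) • (1 : g.E) := by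
  have h1 := sc_mono hL hj
  have h2 := D.lo
  set B : g.P → Finset (Finset g.P) := fun f => univ.filter fun U =>
    stein U ≤ r / 20 ∧ ∃ x ∈ U, tdist f x ≤ 2 * stein U + 3 * sc L j with hB
  have hS : univ.filter (fun U => ¬ Gd g (sc L j) r U ∧ ¬ r / 20 < stein U) =
      (univ.filter fun f => flux g.A f = -1).biUnion B := by
    ext U
    simp only [mem_filter, mem_univ, true_and, mem_biUnion, hB, not_lt, Gd]
    constructor
    · rintro ⟨hU, hs⟩
      push Not at hU
      obtain ⟨f, hf, hx⟩ := hU hs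
      exact ⟨f, hf, hs, hx⟩
    · rintro ⟨f, hf, hs, x, hx, hd⟩
      exact ⟨fun hU => absurd hd (not_le.2 (hU.2 f hf x hx)), hs⟩
  rw [hS, sum_biUnion, sum_smul]
  · refine sum_congr rfl fun f hf => ?_
    rw [Geo.sigC, Geo.sigC, ← sum_sub_distrib, sum_smul]
    refine sum_congr (by rw [hB]) fun U hU => ?_
    obtain ⟨hs, x, hx, hd⟩ := (mem_filter.1 hU).2
    have hk : ∀ k, (g.src k).y ∉ U := by
      intro k hk
      have := sep_fs D (mem_filter.1 hf).2 k
      have := tdist_le_stein hx hk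
      have := tdist_triangle f x (g.src k).y
      omega
    obtain ⟨hm, hn⟩ := W.Geo.csC_mem D.ok hu L q j U
    rw [Br, br, sum_eq_zero fun k _ => by
      rw [cf_not_mem (g := one g A' k) (W.Geo.csC_mem (ok_one D.ok D.w k) hu L q j U).1 (hk k),
        zero_smul], sub_zero, sub_smul, ← ag_apply, ← src_zero hm hn hk]
    rfl
  · intro f hf f' hf' hne
    refine disjoint_left.2 fun U hU hU' => ?_
    obtain ⟨hs, x, hx, hd⟩ := (mem_filter.1 hU).2
    obtain ⟨-, x', hx', hd'⟩ := (mem_filter.1 hU').2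
    have := sep_ff D (mem_filter.1 (mem_coe.1 hf)).2 (mem_filter.1 (mem_coe.1 hf')).2 hne
    have := tdist_le_stein hx hx'
    have := tdist_triangle f x f'
    have := tdist_triangle x x' f'
    rw [tdist_comm f' x'] at hd'
    omega

variable {q : Par} {u : Cor g.M} {Z w a b h : ℝ}

theorem WW_zero (hL : 8 ≤ L) (hr : 80 ≤ r) (F : g.FlowD L q u Z w a b h)
    (F0 : (bare g A').FlowD L q u Z w a b h) (F1 : ∀ k, (one g A' k).FlowD L q u Z w a b h) :
    WW g A' L par0 0 = 0 := by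
  rw [WW_eq]
  refine sum_eq_zero fun j hj => sum_eq_zero fun U _ => ?_
  have hj' : j ≤ g.J := by have := mem_range.1 hj; omega
  by_cases hU : Gd g (sc L j) r U
  · exact br_good D hL par0_ok (by have := D.Mlo; change 16 * (0 + 1) ≤ g.M; omega)
      (Cor.ok_zero _) hj' hU
  · obtain ⟨h1, h2, h3⟩ := not_exc D (by omega) hr hj' hU
    rw [Br, csC_zero, csC_zero, F.early0 j hj' U h1, F0.early0 j hj' U h2]
    simp only [fun k => (one g A' k).csC_zero L par0 j, fun k => (F1 k).early0 j hj' U (h3 k)]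
    exact br_zero

open Classical in
/-- The large sets. -/
theorem large (hL : 8 ≤ L) (hr : 80 ≤ r) (hu : u.Ok) (hw : 0 < w) (F : g.FlowD L q u Z w a b h)
    (F0 : (bare g A').FlowD L q u Z w a b h) (F1 : ∀ k, (one g A' k).FlowD L q u Z w a b h)
    {j : ℕ} (hj : j ≤ g.J) :
    g.ps (w * sc L g.J) univ (∑ U ∈ univ.filter (fun U => ¬ Gd g (sc L j) r U ∧ r / 20 < stein U),
      Br g A' L q u j U) ≤ (Fintype.card g.K + 2) * ((8 * Λ * L + 1) ^ 2 * (a *
        4 ^ (Fintype.card g.K + 2) * (Fintype.card g.K + 3).factorial)) *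
          (1 / 2 ^ j * (1 / 4 ^ (g.J - j))) := by
  set k := Fintype.card g.K with hk
  set x : ℝ := (L : ℝ) ^ (g.J - j) with hx
  have h8 := eight_le_sc (L := L) (by omega) j
  have hl : (0 : ℝ) < sc L j := by positivity
  have hβ : 0 < w * sc L j := by positivity
  have hle : w * sc L j ≤ w * sc L g.J :=
    mul_le_mul_of_nonneg_left (by exact_mod_cast sc_mono (by omega) hj) hw.le
  have hq : 4 * (w * sc L g.J) / (w * sc L j) ≤ 4 * x := by
    rw [div_le_iff₀ hβ, sc_eq hj, hx]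
    push_cast
    exact le_of_eq (by ring)
  have hx1 : 1 ≤ x := one_le_pow₀ (by exact_mod_cast (by omega : 1 ≤ L))
  have ha : 0 ≤ a / 2 ^ j := G.anch_nonneg (fun U => by split_ifs; exacts [le_rfl, ps_nonneg _])
    (F.early j hj)
  have hM : (g.M : ℝ) / sc L j + 1 ≤ (8 * Λ * L + 1) * (4 * x) := by
    have h1 : g.M ≤ 8 * Λ * L * L ^ (g.J - j) * sc L j := by
      calc g.M ≤ Λ * (8 * sc L (g.J + 1)) := D.Mhi.trans (Nat.mul_le_mul_left _ D.hi)
        _ = _ := by rw [sc_eq (Nat.le_succ g.J), sc_eq hj]; simp; ring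
    have h2 : (g.M : ℝ) / sc L j ≤ 8 * Λ * L * x := by
      rw [div_le_iff₀ hl, hx]
      exact_mod_cast h1
    have h3 : (0 : ℝ) ≤ 8 * Λ * L * x := by positivity
    linarith
  set E := (8 * Λ * L + 1 : ℝ) ^ 2 * (4 ^ (k + 2) * (k + 3).factorial * (1 / 4 ^ (g.J - j))) *
    (a / 2 ^ j) with hE
  have key : ∀ (p : Finset g.P → Prop) (f f' : Finset g.P → ℝ), (∀ U, 0 ≤ f U) →
      Anch (sc L j) (2 * L) (fun U => if p U then 0 else f U) (a / 2 ^ j) →
      (∀ U, ¬ Gd g (sc L j) r U → ¬ p U) → (∀ U, f' U ≤ (4 * x) ^ k * f U) →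
      ∑ U ∈ univ.filter (fun U => ¬ Gd g (sc L j) r U ∧ r / 20 < stein U), f' U ≤ E := by
    intro p f f' hf hA hp hf'
    have nn : ∀ U, 0 ≤ if p U then 0 else f U := fun U => by split_ifs; exacts [le_rfl, hf U]
    have h1 := Anch.large (by omega) (by positivity) nn hA (r / 20 + 1) (by omega)
    have h2 : ∑ U ∈ univ.filter (fun U => ¬ Gd g (sc L j) r U ∧ r / 20 < stein U), f' U ≤
        (4 * x) ^ k * ∑ U ∈ univ.filter (fun U : Finset g.P => r / 20 + 1 ≤ stein U),
          if p U then 0 else f U := by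
      rw [mul_sum]
      refine (sum_le_sum fun U hU => ?_).trans (sum_le_sum_of_subset_of_nonneg
        (fun U hU => mem_filter.2 ⟨mem_univ _, (mem_filter.1 hU).2.2⟩)
        fun U _ _ => mul_nonneg (by positivity) (nn U))
      rw [if_neg (hp U (mem_filter.1 hU).2.1)]
      exact hf' U
    refine h2.trans ((mul_le_mul_of_nonneg_left h1 (by positivity)).trans ?_)
    have h3 := gain (L := L) (by omega) hj D.lo (k + 2)
    have h4 : Real.exp (-(2 * L * (r / 20 + 1 : ℕ) / sc L j)) ≤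
        Real.exp (-(L * (r / 20 + 1 : ℕ) / sc L j)) := by
      rw [Real.exp_le_exp, neg_le_neg_iff, mul_assoc, mul_div_assoc 2]
      exact le_mul_of_one_le_left (by positivity) one_le_two
    calc _ ≤ (4 * x) ^ k * (((8 * Λ * L + 1) * (4 * x)) ^ 2 *
          Real.exp (-(L * (r / 20 + 1 : ℕ) / sc L j)) * (a / 2 ^ j)) := by gcongr
      _ = (8 * Λ * L + 1) ^ 2 * ((4 * x) ^ (k + 2) *
          Real.exp (-(L * (r / 20 + 1 : ℕ) / sc L j))) * (a / 2 ^ j) := by ring
      _ ≤ E := by rw [hE]; gcongr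
  have hβ' := hβ.trans_le hle
  refine (RN.pn_sum le_rfl one_pos hβ' _ _).trans ((sum_le_sum fun U _ => ps_br D.ok.sign D.w hβ'
    (W.Geo.csC_mem D.ok hu L q j U).1
    fun k => (W.Geo.csC_mem (ok_one D.ok D.w k) hu L q j U).1).trans ?_)
  rw [sum_add_distrib, sum_add_distrib, sum_comm]
  have b1 := key _ _ _ (fun _ => ps_nonneg _) (F.early j hj)
    (fun U hU => (not_exc D (by omega) hr hj hU).1)
    fun U => ps_wt D.ok.sign hβ hle hq le_rfl (W.Geo.csC_mem D.ok hu L q j U).1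
  have b2 := key _ _ _ (fun _ => ps_nonneg _) (F0.early j hj)
    (fun U hU => (not_exc D (by omega) hr hj hU).2.1)
    fun U => ps_wt (g := bare g A') D.w hβ hle hq (by simp)
      (W.Geo.csC_mem (ok_bare D.w) hu L q j U).1
  have b3 := sum_le_card_nsmul univ _ _ fun i _ => key _ _ _ (fun _ => ps_nonneg _)
    ((F1 i).early j hj) (fun U hU => (not_exc D (by omega) hr hj hU).2.2 i)
    fun U => ps_wt (g := one g A' i) D.w hβ hle hq
      (by rw [Fintype.card_unit]; exact Fintype.card_pos_iff.2 ⟨i⟩)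
      (W.Geo.csC_mem (ok_one D.ok D.w i) hu L q j U).1
  rw [nsmul_eq_mul, card_univ, ← hk] at b3
  refine (add_le_add (add_le_add b1 b2) b3).trans (le_of_eq ?_)
  rw [hE]
  ring

open Classical in
/-- The exponent is the sum of the constants of the fluxes up to a small error. -/
theorem err (hL : 8 ≤ L) (hr : 80 ≤ r) (hq : q.Ok) (hR : 16 * (q.R + 1) ≤ g.M) (hu : u.Ok)
    (hw : 0 < w) (ha : 0 ≤ a) (F : g.FlowD L q u Z w a b h)
    (F0 : (bare g A').FlowD L q u Z w a b h) (F1 : ∀ k, (one g A' k).FlowD L q u Z w a b h) :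
    g.ps (w * sc L g.J) univ (WW g A' L q u -
      (∑ f ∈ univ.filter (fun f => flux g.A f = -1), ss g A' L q u f (r / 20)) • 1) ≤
      (Fintype.card g.K + 2) * ((8 * Λ * L + 1) ^ 2 * (a *
        4 ^ (Fintype.card g.K + 2) * (Fintype.card g.K + 3).factorial)) * (2 / 2 ^ g.J) := by
  have h8 := eight_le_sc (L := L) (by omega) g.J
  have hβ : 0 < w * sc L g.J := by positivity
  have e1 : ∀ j ∈ range (g.J + 1), ∑ U, Br g A' L q u j U =
      ∑ U ∈ univ.filter (fun U => ¬ Gd g (sc L j) r U ∧ r / 20 < stein U), Br g A' L q u j U +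
      (∑ f ∈ univ.filter (fun f => flux g.A f = -1),
        (g.sigC L q u j f (r / 20) - (bare g A').sigC L q u j f (r / 20))) • (1 : g.E) := by
    intro j hj
    have hj' : j ≤ g.J := by have := mem_range.1 hj; omega
    rw [← medium D (by omega) q hu hj', ← filter_filter, ← filter_filter,
      sum_filter_add_sum_filter_not]
    exact (sum_filter_of_ne (p := fun U => ¬ Gd g (sc L j) r U)
      fun U _ hne hU => hne (br_good D hL hq hR hu hj' hU)).symm
  rw [WW_eq, sum_congr rfl e1, sum_add_distrib, ← sum_smul,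
    sum_comm (s := range (g.J + 1)) (t := univ.filter fun f => flux g.A f = -1)]
  simp only [ss, add_sub_cancel_right]
  refine (RN.pn_sum le_rfl one_pos hβ _ _).trans ((sum_le_sum fun j hj =>
    large D hL hr hu hw F F0 F1 (j := j) (by have := mem_range.1 hj; omega)).trans ?_)
  rw [← mul_sum]
  exact mul_le_mul_of_nonneg_left (geo_head g.J) (by positivity)

/-- The constant of a flux is the one of the plane. -/
theorem ss_eq (hq : q.Ok) (hR : 16 * (q.R + 1) ≤ g.M) (hu : u.Ok) (hoff : u.Off A') {G : Geo}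
    {A₀ : Gauge G.M} {N₀ Λ₀ N : ℕ} {Z' w' a' b' : ℝ} (D₀ : Dat G A₀ L q N₀ Λ₀ r N Z' w' a' b')
    (hJ : G.J = g.J) {f : g.P} (hf : flux g.A f = -1) {f₀ : G.P} (hf₀ : flux G.A f₀ = -1) :
    ss g A' L q u f (r / 20) = Mn.ss G A₀ L q G.J f₀ (r / 20) := by
  have hL := D₀.hL
  have h1 := D.lo
  have h2 := D.Mlo
  have h3 := D₀.hM
  have h8 := eight_le_sc (L := L) (by omega) g.J
  rw [hJ]
  refine sum_congr rfl fun j hj => ?_
  have hT : 4 * (r / 20) + 6 * sc L j ≤ r := by
    have := sc_mono (L := L) (by omega) (show j ≤ g.J by have := mem_range.1 hj; omega)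
    omega
  have m1 : MatchC g G u 0 f f₀ r := by
    refine W.R6.matchC_sign D.ok.sign D₀.nice.ok.sign (by omega) (by omega) (by omega)
      (fun x hx => ?_) fun X hX => hoff X fun x hx => flat' D hf x (hX x hx)
    by_cases he : x = f
    · rw [he, shf_center, hf, hf₀]
    · have e2 := tdist_shf f f₀ hx (by omega)
      rw [D.sep.ff f hf x he hx]
      refine (flux_sign D₀.nice.ok.sign _).resolve_right fun h => ?_
      have := D₀.nice.sep.ff _ f₀ h hf₀ fun h' => by
        rw [h', tdist_self] at e2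
        exact he (tdist_eq_zero e2.symm)
      omega
  have m2 : MatchC (bare g A') (bare G A₀) u 0 f f₀ r :=
    W.R6.matchC_flat (g := bare g A') (g' := bare G A₀) D.w hoff D₀.sign (by omega)
      (by change 4 * r + 1 ≤ g.M; omega) (by change 4 * r + 1 ≤ G.M; omega) (flat' D hf)
      fun x _ => D₀.flat _
  rw [← W.Geo.ag_sigC (by omega) D.ok D₀.nice.ok.okW hu (Cor.ok_zero _) hq hR D₀.hR j _ m1 hT,
    ← W.Geo.ag_sigC (g := bare g A') (by omega) (ok_bare D.w) D₀.ok0.okW hu (Cor.ok_zero _) hq hR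
      D₀.hR j _ m2 hT, sigC_zero, sigC_zero]

end

end Vale.Agent.P144Z.MN
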