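import Vale.Agent.P144D.MN.Alg

/-!
# The main estimate with a boundary: the last integration
-/

namespace Vale.Agent.P144Z.MN

open Finset Matrix Geo Mn

variable {g : Geo} {ℓ : ℕ} {h β : ℝ}

theorem pn_exp (hℓ : 1 ≤ ℓ) (hh : 0 < h) (hβ : 0 < β) {F : g.E} (hF : F ∈ g.sub univ) {x : ℝ}
    (hx : g.pn ℓ h β univ F ≤ x) : g.pn ℓ h β univ (NormedSpace.exp F - 1) ≤ Real.exp x - 1 ∧
      g.pn ℓ h β univ (NormedSpace.exp F) ≤ Real.exp x := by
  have h1 := ((sub_exp_log (g.sub univ) (g.pn ℓ h β univ) (fun _ => RN.pn_nonneg _)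
    (fun F _ G _ => RN.pn_add hℓ hh hβ F G) (fun c F _ => RN.pn_smul hℓ hh hβ c F)
    (fun F _ G _ => RN.pn_mul hℓ hh hβ F G) (RN.pn_one hℓ hh hβ)
    (fun _ hF h => RN.pn_def hℓ hh hβ hF h)).1 F hF).2
  have h2 := RN.pn_add (X := univ) hℓ hh hβ (NormedSpace.exp F - 1) 1
  have h3 := RN.pn_one (g := g) (X := univ) hℓ hh hβ
  have h4 := Real.exp_le_exp.2 hx
  rw [sub_add_cancel] at h2
  exact ⟨by linarith, by linarith⟩

theorem lastB_nonneg (hℓ : 1 ≤ ℓ) (hh : 0 < h) {K : ℝ} (H : g.LastB ℓ h K) : 0 ≤ K := by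
  have h1 := (ps_nonneg _).trans (H 1 one_pos 1 (one_mem _))
  have h2 := RN.abs_aug_le_pn (g := g) (X := univ) hℓ hh one_pos 1
  rw [map_one, map_one, abs_one] at h2
  exact nonneg_of_mul_nonneg_left h1 (by linarith)

theorem lastB_mono (hℓ : 1 ≤ ℓ) (hh : 0 < h) {K h' : ℝ} (H : g.LastB ℓ h K) (hh' : h ≤ h') :
    g.LastB ℓ h' K := fun β hβ F hF => (H β hβ F hF).trans (mul_le_mul_of_nonneg_left
      (RN.pn_mono hℓ hh hβ hh' le_rfl subset_rfl hF) (lastB_nonneg hℓ hh H))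

theorem ps_bv (hA : IsW g.A) (hβ : 0 < β) (a : g.K → ℝ) {x : ℝ} (ha : ∀ k, β * |a k| ≤ x) :
    g.ps β univ (∑ k, a k • g.bv k) ≤ Fintype.card g.K * x := by
  refine (RN.pn_sum le_rfl one_pos hβ _ _).trans ?_
  rw [← card_univ, ← nsmul_eq_mul]
  refine sum_le_card_nsmul _ _ _ fun k _ => le_trans ?_ (ha k)
  rw [RN.pn_smul le_rfl one_pos hβ, mul_comm]
  exact mul_le_mul_of_nonneg_right (W.Geo.pn_bv k hA le_rfl one_pos hβ (mem_univ _)) (abs_nonneg _)

theorem bv_sum_mem (a : g.K → ℝ) : ∑ k, a k • g.bv k ∈ g.sub univ :=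
  sum_mem fun _ _ => Subalgebra.smul_mem _ (bv_mem (mem_univ _)) _

theorem ps_cf (hA : IsW g.A) (hβ : 0 < β) {U : Finset g.P} {F : g.E} (hF : F ∈ g.sub U)
    (k : g.K) : β * |cf g k F| ≤ g.ps β U F := by
  refine le_trans (mul_le_mul_of_nonneg_left ?_ hβ.le) (W.Geo.pn_db_le hA le_rfl one_pos hβ hF k)
  rw [← ag_toEv_db]
  exact RN.abs_aug_le_pn le_rfl one_pos hβ _

/-- The last integration of the scaled free flow. -/
noncomputable def T0 (g : Geo) (L : ℕ) (Z : ℝ) : g.E :=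
  g.TL (sc L g.J) (NormedSpace.exp (∑ k, (Z * (-2 * tc)) • g.bE k))

theorem ag_T0 (L : ℕ) (Z : ℝ) : ag g (T0 g L Z) = Zw par0 g.A 1 := by
  have h1 : ∀ F, ag g (g.noB F) = ag g F := fun F => by
    have := congrArg (ag g) (noF_noB (g := g) F)
    have h2 := congrArg (ag g) (noF_noB (g := g) (g.noB F))
    rw [noB_noB, noF_noB] at h2
    simpa only [map_smul, ag_one, smul_eq_mul, mul_one, ← ag_apply] using h2.symm
  rw [← h1, T0, ← LM.TL_noB, hom_exp g.noB noB_one noB_mul]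
  simp only [map_sum, map_smul, noB_bE, smul_zero, sum_const_zero, NormedSpace.exp_zero, LM.TL_one,
    ag_one, smul_eq_mul, mul_one]
  rfl

variable {L : ℕ} {q : Par} {u : Cor g.M} {Z w a b K : ℝ}

theorem scB_TT (F : g.FlowD L q u Z w a b h) : g.scB Z (TT g L par0 0) = T0 g L Z := by
  rw [TT, T0, flowC_zero, F.flow0, ← LM.TL_scB, hom_exp (g.scB Z) (scB_one Z) (scB_mul Z)]
  simp only [map_sum, map_smul, scB_bE, smul_smul, mul_comm Z]

theorem ag_TT0 (F : g.FlowD L q u Z w a b h) : ag g (TT g L par0 0) = Zw par0 g.A 1 := by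
  rw [← ag_T0 L Z, ← scB_TT F, ag_apply, ag_apply, aug_scB]

theorem T_close (hg : g.OkW) (hu : u.Ok) (hL : 1 ≤ L) (hh : 0 < h) (hw : 0 < w)
    (F : g.FlowD L q u Z w a b h) (H : g.LastB (sc L g.J) h K) {m : ℕ}
    (hm : Fintype.card g.K ≤ m) :
    g.ps (w * sc L g.J) univ (TT g L q u - T0 g L Z) ≤
      K * (Real.exp m * (Real.exp (b / 2 ^ g.J) - 1)) ∧
    g.ps (w * sc L g.J) univ (T0 g L Z) ≤ K * Real.exp m := by
  have h8 := eight_le_sc hL g.J
  have hℓ : 1 ≤ sc L g.J := by omega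
  have hβ : 0 < w * sc L g.J := by positivity
  have hK := lastB_nonneg hℓ hh H
  set S := ∑ k, (Z * (-2 * tc)) • g.bE k with hS
  set X := ∑ X, (g.flowC L q u g.J).H X with hX
  have hSm : S ∈ g.sub univ :=
    sum_mem fun k _ => Subalgebra.smul_mem _ (mem_univ_sub (bE_mem k)) _
  have hXm : X ∈ g.sub univ :=
    sum_mem fun U _ => mem_univ_sub ((W.Geo.wf_flowC hg hu L q g.J).H_mem U)
  have h1 : g.pn (sc L g.J) h (w * sc L g.J) univ S ≤ m := by
    refine (RN.pn_sum hℓ hh hβ _ _).trans ((sum_le_card_nsmul _ _ _ fun k _ => F.size k).trans ?_)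
    rw [card_univ, nsmul_eq_mul, mul_one]
    exact_mod_cast hm
  have h2 := (pn_exp hℓ hh hβ hSm h1).2
  have h3 := (pn_exp hℓ hh hβ (sub_mem hXm hSm) F.last).1
  refine ⟨?_, (H _ hβ _ (exp_mem_sub _ hSm)).trans (mul_le_mul_of_nonneg_left h2 hK)⟩
  have e : TT g L q u - T0 g L Z =
      g.TL (sc L g.J) (NormedSpace.exp S * (NormedSpace.exp (X - S) - 1)) := by
    rw [mul_sub, ← exp_add', add_sub_cancel, mul_one, sub_eq_add_neg, sub_eq_add_neg, LM.TL_add,
      ← neg_one_smul ℝ (NormedSpace.exp S), LM.TL_smul, neg_one_smul]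
    rfl
  rw [e]
  refine (H _ hβ _ (mul_mem (exp_mem_sub _ hSm)
    (sub_mem (exp_mem_sub _ (sub_mem hXm hSm)) (one_mem _)))).trans
    (mul_le_mul_of_nonneg_left ((RN.pn_mul hℓ hh hβ _ _).trans ?_) hK)
  exact mul_le_mul h2 h3 (RN.pn_nonneg _) (Real.exp_pos _).le

/-- The ratio of the scalar parts. -/
theorem ratio_le {x y e : ℝ} (hy : y ≠ 0) (he : e ≤ 1 / 2) (hxy : |x - y| ≤ |y| * e) :
    x ≠ 0 ∧ |y / x| ≤ 2 ∧ |y / x - 1| ≤ 2 * e := by
  have h0 := abs_pos.2 hy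
  have h1 : |y| ≤ 2 * |x| := by
    have := abs_sub_abs_le_abs_sub y x
    rw [abs_sub_comm] at this
    nlinarith
  have h2 : 0 < |x| := by linarith
  have he0 : 0 ≤ e := nonneg_of_mul_nonneg_right ((abs_nonneg _).trans hxy) h0
  refine ⟨abs_pos.1 h2, by rwa [abs_div, div_le_iff₀ h2], ?_⟩
  rw [div_sub_one (abs_pos.1 h2), abs_div, div_le_iff₀ h2, abs_sub_comm]
  nlinarith

variable {A' : Gauge g.M}

theorem tt_close (hg : g.OkW) (hA' : IsW A') (hu : u.Ok) (hL : 1 ≤ L) (hh : 0 < h) (hw : 0 < w)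
    (k : g.K) (F : (one g A' k).FlowD L q u Z w a b h) (h0 : Zw par0 A' 1 ≠ 0)
    (H : (one g A' k).LastB (sc L g.J) h |Zw par0 A' 1|) {e : ℝ}
    (he : Real.exp 1 * (Real.exp (b / 2 ^ g.J) - 1) ≤ e) (he1 : e ≤ 1 / 2) :
    ag _ (TT (one g A' k) L q u) ≠ 0 ∧
    w * sc L g.J * |tt g A' L q u k - Z * tt g A' L par0 0 k| ≤ 8 * e ∧
    w * sc L g.J * |Z * tt g A' L par0 0 k| ≤ 3 := by
  have h8 := eight_le_sc hL g.J
  have hβ : 0 < w * sc L g.J := by positivity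
  obtain ⟨h1, h2⟩ := T_close (ok_one hg hA' k) hu hL hh hw F H (m := 1) (by simp)
  have hy := abs_pos.2 h0
  have h3 : Real.exp 1 ≤ 3 := (Real.exp_one_lt_d9.trans (by norm_num)).le
  rw [Nat.cast_one] at h1 h2
  replace h1 := h1.trans (mul_le_mul_of_nonneg_left he hy.le)
  replace h2 := h2.trans (mul_le_mul_of_nonneg_left h3 hy.le)
  have hm : T0 (one g A' k) L Z ∈ (one g A' k).sub univ := LM.TL_mem' _ _
  have c1 := (ps_cf (g := one g A' k) hA' hβ (sub_mem TT_mem hm) ()).trans h1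
  have c2 := (ps_cf (g := one g A' k) hA' hβ hm ()).trans h2
  have c3 := (RN.abs_aug_le_pn le_rfl one_pos hβ _).trans h1
  rw [← ag_apply, map_sub, ag_T0] at c3
  obtain ⟨r1, r2, r3⟩ := ratio_le h0 he1 c3
  have e0 : Z * tt g A' L par0 0 k = cf _ () (T0 (one g A' k) L Z) / Zw par0 A' 1 := by
    rw [tt, ag_TT0 F, ← scB_TT F, cf_apply, cf_apply, aug_db_scB Z _ TT_mem, mul_div_assoc]
  rw [map_sub] at c1
  rw [e0, tt]
  generalize cf _ () (TT (one g A' k) L q u) = s at *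
  generalize cf _ () (T0 (one g A' k) L Z) = s' at *
  generalize ag _ (TT (one g A' k) L q u) = x at *
  change |x - Zw par0 A' 1| ≤ _ at c3
  change |Zw par0 A' 1 / x| ≤ _ at r2
  change |Zw par0 A' 1 / x - 1| ≤ _ at r3
  generalize Zw par0 A' 1 = y at *
  generalize w * sc L g.J = β at *
  refine ⟨r1, ?_, by rw [abs_div, ← mul_div_assoc, div_le_iff₀ hy]; linarith⟩
  have e1 : s / x - s' / y = ((y / x) * (s - s') + (y / x - 1) * s') / y := by field_simp; ring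
  rw [e1, abs_div, ← mul_div_assoc, div_le_iff₀ hy]
  have d1 := mul_le_mul_of_nonneg_left (abs_add_le ((y / x) * (s - s')) ((y / x - 1) * s')) hβ.le
  rw [abs_mul, abs_mul] at d1
  have d2 := mul_le_mul r2 c1 (by positivity) zero_le_two
  have d3 := mul_le_mul r3 c2 (by positivity) ((abs_nonneg _).trans r3)
  nlinarith

/-- From the exponents to the top coefficients. -/
theorem top_le (hβ : 0 < β) (top : g.E →ₗ[ℝ] ℝ) {γ : ℝ}
    (ht : ∀ F, γ * |top F| ≤ g.ps β univ F) {V V₀ T T₀ : g.E} (hV : V ∈ g.sub univ)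
    (hV₀ : V₀ ∈ g.sub univ) {c e v x y K₁ : ℝ} (hy : y ≠ 0) (he1 : e ≤ 1 / 2)
    (hxy : |x - y| ≤ |y| * e) (h1 : g.ps β univ (V - c • 1 - V₀) ≤ e) (h2 : g.ps β univ V₀ ≤ v)
    (h3 : g.ps β univ (T - T₀) ≤ K₁ * e) (h4 : g.ps β univ T₀ ≤ K₁) :
    γ * |top (NormedSpace.exp V * T) / x - Real.exp c * (top (NormedSpace.exp V₀ * T₀) / y)| ≤
      Real.exp c * Real.exp v * (10 * e) * (K₁ / |y|) := by
  obtain ⟨r1, r2, r3⟩ := ratio_le hy he1 hxy
  have hy0 := abs_pos.2 hy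
  have he0 : 0 ≤ e := (ps_nonneg _).trans h1
  have hK : 0 ≤ K₁ := (ps_nonneg _).trans h4
  set P := NormedSpace.exp (V - c • 1 - V₀) with hP
  have e1 : NormedSpace.exp V = Real.exp c • (NormedSpace.exp V₀ * P) := by
    rw [← exp_add', ← one_mul (NormedSpace.exp (V₀ + _)), ← smul_mul_assoc, ← exp_smul_one,
      ← exp_add']
    congr 1
    abel
  have e2 : top (NormedSpace.exp V * T) / x - Real.exp c * (top (NormedSpace.exp V₀ * T₀) / y) =
      Real.exp c / y * top (NormedSpace.exp V₀ *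
        (((y / x) • (P - 1) + (y / x - 1) • 1) * T + (T - T₀))) := by
    simp only [e1, mul_add, add_mul, mul_sub, sub_mul, smul_sub, sub_smul, smul_mul_assoc,
      mul_smul_comm, one_mul, map_add, map_sub, map_smul, smul_eq_mul, mul_assoc]
    field_simp
    ring
  have b1 := (pn_exp le_rfl one_pos hβ hV₀ h2).2
  have b2 := (pn_exp le_rfl one_pos hβ
    (sub_mem (sub_mem hV (Subalgebra.smul_mem _ (one_mem _) c)) hV₀) h1).1
  have b3 : Real.exp e - 1 ≤ 2 * e := by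
    have := Real.abs_exp_sub_one_le (x := e) (by rw [abs_of_nonneg he0]; linarith)
    rw [abs_of_nonneg he0] at this
    exact (le_abs_self _).trans this
  have b4 : g.ps β univ ((y / x) • (P - 1) + (y / x - 1) • 1) ≤ 6 * e := by
    refine (RN.pn_add le_rfl one_pos hβ _ _).trans ?_
    rw [RN.pn_smul le_rfl one_pos hβ, RN.pn_smul le_rfl one_pos hβ]
    have d1 := mul_le_mul r2 (b2.trans b3) (RN.pn_nonneg _) zero_le_two
    have d2 := mul_le_mul r3 (RN.pn_one (g := g) (X := univ) le_rfl one_pos hβ) (RN.pn_nonneg _)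
      (by linarith)
    linarith
  have b5 : g.ps β univ T ≤ 3 / 2 * K₁ := by
    have := RN.pn_add (X := univ) le_rfl one_pos hβ (T - T₀) T₀
    rw [sub_add_cancel] at this
    unfold Geo.ps at *
    nlinarith
  have b6 : g.ps β univ (((y / x) • (P - 1) + (y / x - 1) • 1) * T + (T - T₀)) ≤ 10 * e * K₁ := by
    refine (RN.pn_add le_rfl one_pos hβ _ _).trans ?_
    have := (RN.pn_mul le_rfl one_pos hβ _ _).trans
      (mul_le_mul b4 b5 (RN.pn_nonneg _) (by linarith))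
    unfold Geo.ps at h3
    linarith
  have b7 := (ht _).trans ((RN.pn_mul le_rfl one_pos hβ _ _).trans
    (mul_le_mul b1 b6 (RN.pn_nonneg _) (Real.exp_pos _).le))
  rw [e2, abs_mul, abs_div, abs_of_pos (Real.exp_pos c), mul_left_comm]
  refine (mul_le_mul_of_nonneg_left b7 (by positivity)).trans (le_of_eq ?_)
  ring

end Vale.Agent.P144Z.MN
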